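import Mathlib

/-!
# A dual basis of the differentials of a smooth algebra
-/

namespace Vale.Agent.P286.H697

open TensorProduct

/-- The differentials of a smooth algebra have a dual basis `dx i`, `v i`. -/
theorem exists_dualBasis (A : Type*) [CommRing A] [Algebra ℂ A] [Algebra.Smooth ℂ A] :
    ∃ (r : ℕ) (x : Fin r → A) (v : Fin r → Derivation ℂ A A),
      ∀ a, KaehlerDifferential.D ℂ A a = ∑ i, v i a • KaehlerDifferential.D ℂ A (x i) := by
  classical
  have hfg : (Submodule.span A (Set.range (KaehlerDifferential.D ℂ A))).FG := by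
    rw [KaehlerDifferential.span_range_derivation]
    exact Module.Finite.fg_top
  obtain ⟨s, hs, he⟩ := (Submodule.fg_span_iff_fg_span_finset_subset _).1 hfg
  rw [KaehlerDifferential.span_range_derivation] at he
  have hx : ∀ y : s, ∃ a, KaehlerDifferential.D ℂ A a = y := fun y => hs y.2
  choose x hx using hx
  let e := s.equivFin
  let x' : Fin s.card → A := fun i => x (e.symm i)
  let π : (Fin s.card → A) →ₗ[A] (Ω[A⁄ℂ]) :=
    Fintype.linearCombination A (fun i => KaehlerDifferential.D ℂ A (x' i))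
  have hπ : Function.Surjective π := by
    rw [← LinearMap.range_eq_top, Fintype.range_linearCombination, he]
    congr 1
    ext y
    constructor
    · rintro ⟨i, rfl⟩
      change KaehlerDifferential.D ℂ A (x (e.symm i)) ∈ (s : Set _)
      rw [hx]
      exact (e.symm i).2
    · intro hy
      exact ⟨e ⟨y, hy⟩, by simp only [x', Equiv.symm_apply_apply, hx]⟩
  obtain ⟨σ, hσ⟩ := Module.projective_lifting_property π LinearMap.id hπ
  refine ⟨s.card, x', fun i => ((LinearMap.proj i).comp σ).compDer (KaehlerDifferential.D ℂ A),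
    fun a => ?_⟩
  have h := LinearMap.congr_fun hσ (KaehlerDifferential.D ℂ A a)
  rw [LinearMap.comp_apply, LinearMap.id_apply, Fintype.linearCombination_apply] at h
  rw [← h]
  rfl

/-- Every derivation is a combination of the derivations of a dual basis. -/
theorem eq_sum_of_dual {A : Type*} [CommRing A] [Algebra ℂ A] {r : ℕ} {x : Fin r → A}
    {v : Fin r → Derivation ℂ A A}
    (h : ∀ a, KaehlerDifferential.D ℂ A a = ∑ i, v i a • KaehlerDifferential.D ℂ A (x i))
    {M : Type*} [AddCommGroup M] [Module ℂ M] [Module A M] [IsScalarTower ℂ A M]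
    (w : Derivation ℂ A M) (a : A) : w a = ∑ i, v i a • w (x i) := by
  have := congrArg w.liftKaehlerDifferential (h a)
  simpa [Derivation.liftKaehlerDifferential_comp_D] using this

/-- The dual basis identity on the infinitesimal neighbourhood of the diagonal. -/
theorem mem_ideal_sq_of_dual {A : Type*} [CommRing A] [Algebra ℂ A] {r : ℕ} {x : Fin r → A}
    {v : Fin r → Derivation ℂ A A}
    (h : ∀ a, KaehlerDifferential.D ℂ A a = ∑ i, v i a • KaehlerDifferential.D ℂ A (x i))
    (a : A) :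
    ((1 : A) ⊗ₜ[ℂ] a - a ⊗ₜ[ℂ] (1 : A)) -
      ∑ i, (v i a ⊗ₜ[ℂ] (1 : A)) * ((1 : A) ⊗ₜ[ℂ] x i - x i ⊗ₜ[ℂ] (1 : A)) ∈
        KaehlerDifferential.ideal ℂ A ^ 2 := by
  have hm := KaehlerDifferential.one_smul_sub_smul_one_mem_ideal (R := ℂ) (S := A)
  have hs : ∀ (b : A) (z : KaehlerDifferential.ideal ℂ A),
      KaehlerDifferential.fromIdeal ℂ A ((b ⊗ₜ[ℂ] (1 : A)) • z) =
        b • KaehlerDifferential.fromIdeal ℂ A z := by
    intro b z
    rw [map_smul, ← mul_one b, ← smul_eq_mul, ← TensorProduct.smul_tmul', smul_assoc,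
      smul_eq_mul, mul_one, ← Algebra.TensorProduct.one_def, one_smul]
  have hD : ∀ b : A, KaehlerDifferential.fromIdeal ℂ A ⟨(1 : A) ⊗ₜ[ℂ] b - b ⊗ₜ[ℂ] (1 : A), hm b⟩ =
      KaehlerDifferential.D ℂ A b := fun b => rfl
  have key : KaehlerDifferential.fromIdeal ℂ A
      (⟨(1 : A) ⊗ₜ[ℂ] a - a ⊗ₜ[ℂ] (1 : A), hm a⟩ - ∑ i, (v i a ⊗ₜ[ℂ] (1 : A)) •
        (⟨(1 : A) ⊗ₜ[ℂ] x i - x i ⊗ₜ[ℂ] (1 : A), hm (x i)⟩ :
          KaehlerDifferential.ideal ℂ A)) = 0 := by
    rw [map_sub, map_sum, hD, h a, sub_eq_zero]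
    exact Finset.sum_congr rfl fun i _ => by rw [hs, hD]
  have key2 := (Ideal.toCotangent_eq_zero _ _).1 key
  rwa [Submodule.coe_sub, Submodule.coe_sum] at key2

end Vale.Agent.P286.H697
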