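import Mathlib

/-!
# Completion of a space with a decreasing filtration

`Cpl F` is the limit of the quotients `X ⧸ F n`; a linear map which is continuous for the
topologies defined by the filtrations extends to the completions, strictly functorially.
-/

namespace Vale.Agent.P286.H697

noncomputable section

variable {X Y Z : Type*} [AddCommGroup X] [Module ℂ X] [AddCommGroup Y] [Module ℂ Y]
  [AddCommGroup Z] [Module ℂ Z]

/-- The completion: the families of classes in `X ⧸ F n` such that two consecutive ones have a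
common representative. -/
def Cpl (F : ℕ → Submodule ℂ X) : Submodule ℂ (∀ n, X ⧸ F n) where
  carrier := {s | ∀ n, ∃ x, (F n).mkQ x = s n ∧ (F (n + 1)).mkQ x = s (n + 1)}
  add_mem' := by
    intro s t hs ht n
    obtain ⟨x, h1, h2⟩ := hs n
    obtain ⟨y, h3, h4⟩ := ht n
    exact ⟨x + y, by rw [map_add, h1, h3]; rfl, by rw [map_add, h2, h4]; rfl⟩
  zero_mem' := fun n => ⟨0, map_zero _, map_zero _⟩
  smul_mem' := by
    intro c s hs n
    obtain ⟨x, h1, h2⟩ := hs n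
    exact ⟨c • x, by rw [map_smul, h1]; rfl, by rw [map_smul, h2]; rfl⟩

variable {F : ℕ → Submodule ℂ X} {G : ℕ → Submodule ℂ Y} {H : ℕ → Submodule ℂ Z}

theorem Cpl.ext' {s t : Cpl F} (h : ∀ n, s.1 n = t.1 n) : s = t :=
  Subtype.ext (funext h)

/-- A common representative up to the level `N`. -/
theorem Cpl.exists_rep (hF : Antitone F) (s : Cpl F) (N : ℕ) :
    ∃ x, ∀ k ≤ N, s.1 k = (F k).mkQ x := by
  induction N with
  | zero =>
    obtain ⟨x, h1, -⟩ := s.2 0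
    exact ⟨x, fun k hk => by obtain rfl := Nat.le_zero.1 hk; exact h1.symm⟩
  | succ N ih =>
    obtain ⟨x, hx⟩ := ih
    obtain ⟨y, h1, h2⟩ := s.2 N
    refine ⟨y, fun k hk => ?_⟩
    rcases Nat.lt_or_ge N k with h | h
    · obtain rfl : k = N + 1 := le_antisymm hk h
      exact h2.symm
    · have h3 : (F N).mkQ (y - x) = 0 := by rw [map_sub, h1, ← hx N le_rfl, sub_self]
      have h4 : y - x ∈ F k := hF h ((Submodule.Quotient.mk_eq_zero _).1 h3)
      have h5 : (F k).mkQ (y - x) = 0 := (Submodule.Quotient.mk_eq_zero _).2 h4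
      rw [hx k h]
      rw [map_sub, sub_eq_zero] at h5
      exact h5.symm

/-- The element of the completion defined by an element of `X`. -/
def Cpl.of (F : ℕ → Submodule ℂ X) : X →ₗ[ℂ] Cpl F where
  toFun x := ⟨fun n => (F n).mkQ x, fun _ => ⟨x, rfl, rfl⟩⟩
  map_add' _ _ := Cpl.ext' fun _ => map_add _ _ _
  map_smul' _ _ := Cpl.ext' fun _ => map_smul _ _ _

@[simp] theorem Cpl.of_val (x : X) (n : ℕ) : (Cpl.of F x).1 n = (F n).mkQ x := rfl

theorem Cpl.of_eq_zero {x : X} (h : ∀ n, x ∈ F n) : Cpl.of F x = 0 :=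
  Cpl.ext' fun n => (Submodule.Quotient.mk_eq_zero _).2 (h n)

/-- The map `u` is continuous. -/
def Cnt (F : ℕ → Submodule ℂ X) (G : ℕ → Submodule ℂ Y) (u : X →ₗ[ℂ] Y) : Prop :=
  ∀ n, ∃ m, F m ≤ (G n).comap u

theorem Cnt.of_le {u : X →ₗ[ℂ] Y} (h : ∀ n, F n ≤ (G n).comap u) : Cnt F G u :=
  fun n => ⟨n, h n⟩

theorem Cnt.of_le_succ {u : X →ₗ[ℂ] Y} (h : ∀ n, F (n + 1) ≤ (G n).comap u) : Cnt F G u :=
  fun n => ⟨n + 1, h n⟩

theorem Cnt.id : Cnt F F LinearMap.id := fun n => ⟨n, le_rfl⟩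

theorem Cnt.comp {v : Y →ₗ[ℂ] Z} {u : X →ₗ[ℂ] Y} (hv : Cnt G H v) (hu : Cnt F G u) :
    Cnt F H (v ∘ₗ u) := fun n => by
  obtain ⟨m, hm⟩ := hv n
  obtain ⟨l, hl⟩ := hu m
  exact ⟨l, fun x hx => hm (hl hx)⟩

theorem Cnt.add (hF : Antitone F) {u u' : X →ₗ[ℂ] Y} (hu : Cnt F G u) (hu' : Cnt F G u') :
    Cnt F G (u + u') := fun n => by
  obtain ⟨m, hm⟩ := hu n
  obtain ⟨l, hl⟩ := hu' n
  refine ⟨max m l, fun x hx => ?_⟩
  change u x + u' x ∈ G n
  exact add_mem (hm (hF (le_max_left _ _) hx)) (hl (hF (le_max_right _ _) hx))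

theorem Cnt.zero : Cnt F G 0 := fun _ => ⟨0, fun _ _ => Submodule.zero_mem _⟩

theorem Cnt.smul {u : X →ₗ[ℂ] Y} (c : ℂ) (hu : Cnt F G u) : Cnt F G (c • u) := fun n => by
  obtain ⟨m, hm⟩ := hu n
  exact ⟨m, fun x hx => Submodule.smul_mem _ _ (hm hx)⟩

theorem Cnt.neg {u : X →ₗ[ℂ] Y} (hu : Cnt F G u) : Cnt F G (-u) := fun n => by
  obtain ⟨m, hm⟩ := hu n
  exact ⟨m, fun x hx => Submodule.neg_mem _ (hm hx)⟩

theorem Cnt.sub (hF : Antitone F) {u u' : X →ₗ[ℂ] Y} (hu : Cnt F G u) (hu' : Cnt F G u') :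
    Cnt F G (u - u') := by
  rw [sub_eq_add_neg]
  exact hu.add hF hu'.neg

theorem Cnt.sum (hF : Antitone F) {ι : Type*} (s : Finset ι) {u : ι → X →ₗ[ℂ] Y}
    (hu : ∀ i ∈ s, Cnt F G (u i)) : Cnt F G (∑ i ∈ s, u i) := by
  classical
  induction s using Finset.induction_on with
  | empty => rw [Finset.sum_empty]; exact Cnt.zero
  | insert a s ha ih =>
    rw [Finset.sum_insert ha]
    exact (hu a (Finset.mem_insert_self _ _)).add hF
      (ih fun i hi => hu i (Finset.mem_insert_of_mem hi))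

/-- The component of level `n` of the extension of `u`. -/
def cmapAux {u : X →ₗ[ℂ] Y} (hu : Cnt F G u) (s : Cpl F) (n : ℕ) : Y ⧸ G n :=
  Submodule.mapQ (F (hu n).choose) (G n) u (hu n).choose_spec (s.1 (hu n).choose)

theorem cmapAux_spec (hF : Antitone F) {u : X →ₗ[ℂ] Y} (hu : Cnt F G u) (s : Cpl F) {m n : ℕ}
    (h : F m ≤ (G n).comap u) {x : X} (hx : s.1 m = (F m).mkQ x) :
    cmapAux hu s n = (G n).mkQ (u x) := by
  obtain ⟨y, hy⟩ := Cpl.exists_rep hF s (max m (hu n).choose)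
  have h1 := hy _ (le_max_right _ _)
  have h2 := hy _ (le_max_left _ _)
  rw [cmapAux, h1]
  simp only [Submodule.mkQ_apply, Submodule.mapQ_apply]
  rw [hx] at h2
  have h3 : y - x ∈ F m := by
    rw [← Submodule.Quotient.mk_eq_zero]
    change (F m).mkQ (y - x) = 0
    rw [map_sub, h2, sub_self]
  rw [← sub_eq_zero, ← Submodule.Quotient.mk_sub, ← map_sub, Submodule.Quotient.mk_eq_zero]
  exact h h3

/-- The extension of a continuous map to the completions. -/
def cmap (hF : Antitone F) (hG : Antitone G) {u : X →ₗ[ℂ] Y} (hu : Cnt F G u) :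
    Cpl F →ₗ[ℂ] Cpl G where
  toFun s := ⟨fun n => cmapAux hu s n, fun n => by
    obtain ⟨m, hm⟩ := hu (n + 1)
    obtain ⟨x, hx⟩ := Cpl.exists_rep hF s m
    refine ⟨u x, ?_, ?_⟩
    · exact (cmapAux_spec hF hu s (fun y hy => hG (Nat.le_succ n) (hm hy)) (hx m le_rfl)).symm
    · exact (cmapAux_spec hF hu s hm (hx m le_rfl)).symm⟩
  map_add' s t := Cpl.ext' fun n => by
    change Submodule.mapQ _ _ _ _ _ = _
    rw [Submodule.coe_add, Pi.add_apply, map_add]
    rfl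
  map_smul' c s := Cpl.ext' fun n => by
    change Submodule.mapQ _ _ _ _ _ = _
    rw [Submodule.coe_smul, Pi.smul_apply, map_smul]
    rfl

/-- The extension of `u`, on representatives. -/
theorem cmap_spec {hF : Antitone F} {hG : Antitone G} {u : X →ₗ[ℂ] Y} {hu : Cnt F G u}
    (s : Cpl F) {m n : ℕ} (h : F m ≤ (G n).comap u) {x : X} (hx : s.1 m = (F m).mkQ x) :
    (cmap hF hG hu s).1 n = (G n).mkQ (u x) :=
  cmapAux_spec hF hu s h hx

/-- For all `s` and `n` there is `x` which represents `s` up to a given level and such that `u x`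
represents the image of `s` at the level `n`. -/
theorem cmap_rep {hF : Antitone F} {hG : Antitone G} {u : X →ₗ[ℂ] Y} {hu : Cnt F G u}
    (s : Cpl F) (n : ℕ) : ∃ m, ∀ x, s.1 m = (F m).mkQ x →
      (cmap hF hG hu s).1 n = (G n).mkQ (u x) := by
  obtain ⟨m, hm⟩ := hu n
  exact ⟨m, fun x hx => cmap_spec s hm hx⟩

@[simp] theorem cmap_of {hF : Antitone F} {hG : Antitone G} {u : X →ₗ[ℂ] Y} {hu : Cnt F G u}
    (x : X) : cmap hF hG hu (Cpl.of F x) = Cpl.of G (u x) :=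
  Cpl.ext' fun n => by
    obtain ⟨m, hm⟩ := cmap_rep (hF := hF) (hG := hG) (hu := hu) (Cpl.of F x) n
    exact hm x rfl

theorem cmap_id {hF : Antitone F} {hu : Cnt F F LinearMap.id} (s : Cpl F) :
    cmap hF hF hu s = s :=
  Cpl.ext' fun n => by
    obtain ⟨x, hx⟩ := Cpl.exists_rep hF s n
    rw [cmap_spec s (m := n) le_rfl (hx n le_rfl), hx n le_rfl]
    rfl

theorem cmap_comp {hF : Antitone F} {hG : Antitone G} {hH : Antitone H} {u : X →ₗ[ℂ] Y}
    {v : Y →ₗ[ℂ] Z} {hu : Cnt F G u} {hv : Cnt G H v} {hvu : Cnt F H (v ∘ₗ u)} (s : Cpl F) :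
    cmap hF hH hvu s = cmap hG hH hv (cmap hF hG hu s) :=
  Cpl.ext' fun n => by
    obtain ⟨m, hm⟩ := hv n
    obtain ⟨l, hl⟩ := hu m
    obtain ⟨x, hx⟩ := Cpl.exists_rep hF s l
    rw [cmap_spec s (m := l) (fun y hy => hm (hl hy)) (hx l le_rfl),
      cmap_spec _ hm (cmap_spec s hl (hx l le_rfl))]
    rfl

theorem cmap_congr {hF : Antitone F} {hG : Antitone G} {u v : X →ₗ[ℂ] Y} {hu : Cnt F G u}
    {hv : Cnt F G v} (h : u = v) (s : Cpl F) : cmap hF hG hu s = cmap hF hG hv s := by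
  subst h; rfl

theorem cmap_add {hF : Antitone F} {hG : Antitone G} {u v : X →ₗ[ℂ] Y} {hu : Cnt F G u}
    {hv : Cnt F G v} {huv : Cnt F G (u + v)} (s : Cpl F) :
    cmap hF hG huv s = cmap hF hG hu s + cmap hF hG hv s :=
  Cpl.ext' fun n => by
    obtain ⟨m, hm⟩ := cmap_rep (hF := hF) (hG := hG) (hu := hu) s n
    obtain ⟨l, hl⟩ := cmap_rep (hF := hF) (hG := hG) (hu := hv) s n
    obtain ⟨p, hp⟩ := cmap_rep (hF := hF) (hG := hG) (hu := huv) s n
    obtain ⟨x, hx⟩ := Cpl.exists_rep hF s (max m (max l p))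
    rw [Submodule.coe_add, Pi.add_apply, hm x (hx _ (le_max_left _ _)),
      hl x (hx _ (le_trans (le_max_left _ _) (le_max_right _ _))),
      hp x (hx _ (le_trans (le_max_right _ _) (le_max_right _ _))), LinearMap.add_apply, map_add]

theorem cmap_smul {hF : Antitone F} {hG : Antitone G} {u : X →ₗ[ℂ] Y} {c : ℂ} {hu : Cnt F G u}
    {hcu : Cnt F G (c • u)} (s : Cpl F) : cmap hF hG hcu s = c • cmap hF hG hu s :=
  Cpl.ext' fun n => by
    obtain ⟨m, hm⟩ := cmap_rep (hF := hF) (hG := hG) (hu := hu) s n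
    obtain ⟨p, hp⟩ := cmap_rep (hF := hF) (hG := hG) (hu := hcu) s n
    obtain ⟨x, hx⟩ := Cpl.exists_rep hF s (max m p)
    rw [Submodule.coe_smul, Pi.smul_apply, hm x (hx _ (le_max_left _ _)),
      hp x (hx _ (le_max_right _ _)), LinearMap.smul_apply, map_smul]

theorem cmap_zero {hF : Antitone F} {hG : Antitone G} {hu : Cnt F G 0} (s : Cpl F) :
    cmap hF hG hu s = 0 :=
  Cpl.ext' fun n => by
    obtain ⟨m, hm⟩ := cmap_rep (hF := hF) (hG := hG) (hu := hu) s n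
    obtain ⟨x, hx⟩ := Cpl.exists_rep hF s m
    rw [hm x (hx m le_rfl), LinearMap.zero_apply, map_zero]
    rfl

theorem cmap_eq_zero {hF : Antitone F} {hG : Antitone G} {u : X →ₗ[ℂ] Y} {hu : Cnt F G u}
    (h : u = 0) (s : Cpl F) : cmap hF hG hu s = 0 := by
  subst h; exact cmap_zero s

end

end Vale.Agent.P286.H697
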