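import Vale.Agent.P286.H697.J.Wt

/-!
# The abstract Poincare lemma

A complex `X 0 → X 1 → ...` of filtered spaces with a contraction `io` such that
`d ∘ io + io ∘ d` acts on `F p n / F p (n + 1)` by `-(n + p)`: the completed complex is a
resolution of `X 0 ⧸ F 0 1`, with an explicit homotopy, natural in the data.
-/

namespace Vale.Agent.P286.H697

noncomputable section

/-- A complex of filtered spaces with a contraction. -/
structure PS where
  X : ℕ → Type*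
  [grp : ∀ p, AddCommGroup (X p)]
  [mod : ∀ p, Module ℂ (X p)]
  F : ∀ p, ℕ → Submodule ℂ (X p)
  anti : ∀ p, Antitone (F p)
  top : ∀ p, F p 0 = ⊤
  d : ∀ p, X p →ₗ[ℂ] X (p + 1)
  io : ∀ p, X (p + 1) →ₗ[ℂ] X p
  dc : ∀ p, Cnt (F p) (F (p + 1)) (d p)
  ic : ∀ p n, F (p + 1) n ≤ (F p (n + 1)).comap (io p)
  dd : ∀ p x, d (p + 1) (d p x) = 0
  wt0 : Wt (F 0) (io 0 ∘ₗ d 0) 0
  wt : ∀ p, Wt (F (p + 1)) (d p ∘ₗ io p + io (p + 1) ∘ₗ d (p + 1)) (p + 1)

attribute [instance] PS.grp PS.mod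

namespace PS

variable (S : PS)

/-- The completed terms. -/
abbrev J (p : ℕ) : Type _ := Cpl (S.F p)

theorem icnt (p : ℕ) : Cnt (S.F (p + 1)) (S.F p) (S.io p) :=
  Cnt.of_le fun n _ hx => S.anti p (Nat.le_succ n) (S.ic p n hx)

/-- The differential on the completions. -/
def D (p : ℕ) : S.J p →ₗ[ℂ] S.J (p + 1) := cmap (S.anti p) (S.anti (p + 1)) (S.dc p)

/-- The contraction on the completions. -/
def I (p : ℕ) : S.J (p + 1) →ₗ[ℂ] S.J p := cmap (S.anti (p + 1)) (S.anti p) (S.icnt p)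

theorem DD (p : ℕ) (s : S.J p) : S.D (p + 1) (S.D p s) = 0 := by
  have h : S.d (p + 1) ∘ₗ S.d p = 0 := LinearMap.ext fun x => S.dd p x
  rw [D, D, ← cmap_comp (hvu := (S.dc (p + 1)).comp (S.dc p))]
  exact cmap_eq_zero h s

/-- `io d` in degree zero. -/
def L0 : S.J 0 →ₗ[ℂ] S.J 0 := S.wt0.op (S.anti 0)

/-- `d io + io d` in positive degree. -/
def L (p : ℕ) : S.J (p + 1) →ₗ[ℂ] S.J (p + 1) := (S.wt p).op (S.anti (p + 1))

theorem L0_eq (s : S.J 0) : S.L0 s = S.I 0 (S.D 0 s) := by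
  rw [L0, Wt.op, I, D, ← cmap_comp (hvu := (S.icnt 0).comp (S.dc 0))]

theorem L_eq (p : ℕ) (s : S.J (p + 1)) :
    S.L p s = S.D p (S.I p s) + S.I (p + 1) (S.D (p + 1) s) := by
  rw [L, Wt.op, cmap_add (hu := (S.dc p).comp (S.icnt p))
    (hv := (S.icnt (p + 1)).comp (S.dc (p + 1))), cmap_comp (hu := S.icnt p) (hv := S.dc p),
    cmap_comp (hu := S.dc (p + 1)) (hv := S.icnt (p + 1))]
  rfl

/-- `L` is invertible in positive degree. -/
def E (p : ℕ) : S.J (p + 1) ≃ₗ[ℂ] S.J (p + 1) :=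
  (S.wt p).equiv (S.anti (p + 1)) (S.top (p + 1)) (Nat.succ_pos p)

theorem E_apply (p : ℕ) (s : S.J (p + 1)) : S.E p s = S.L p s := rfl

theorem D_L0 (s : S.J 0) : S.D 0 (S.L0 s) = S.L 0 (S.D 0 s) := by
  rw [L0_eq, L_eq, DD, map_zero, add_zero]

theorem D_L (p : ℕ) (s : S.J (p + 1)) : S.D (p + 1) (S.L p s) = S.L (p + 1) (S.D (p + 1) s) := by
  rw [L_eq, L_eq, DD, map_zero, add_zero, map_add, DD, zero_add]

theorem D_Esymm (p : ℕ) (s : S.J (p + 1)) :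
    S.D (p + 1) ((S.E p).symm s) = (S.E (p + 1)).symm (S.D (p + 1) s) := by
  apply (S.E (p + 1)).injective
  rw [LinearEquiv.apply_symm_apply, E_apply, ← D_L, ← E_apply, LinearEquiv.apply_symm_apply]

/-- The homotopy. -/
def h (p : ℕ) : S.J (p + 1) →ₗ[ℂ] S.J p := S.I p ∘ₗ (S.E p).symm.toLinearMap

theorem h_apply (p : ℕ) (s : S.J (p + 1)) : S.h p s = S.I p ((S.E p).symm s) := rfl

/-- `d h + h d = 1` in positive degree. -/
theorem htpy (p : ℕ) (s : S.J (p + 1)) : S.D p (S.h p s) + S.h (p + 1) (S.D (p + 1) s) = s := by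
  rw [h_apply, h_apply, ← D_Esymm, ← L_eq, ← E_apply, LinearEquiv.apply_symm_apply]

/-- Exactness in positive degree. -/
theorem exact (p : ℕ) {s : S.J (p + 1)} (hs : S.D (p + 1) s = 0) : S.D p (S.h p s) = s := by
  have h1 := S.htpy p s
  rwa [hs, map_zero, add_zero] at h1

/-- The augmentation. -/
def ev : S.J 0 →ₗ[ℂ] S.X 0 ⧸ S.F 0 1 := Cpl.ev (S.F 0)

/-- The coaugmentation. -/
def tau : S.X 0 ⧸ S.F 0 1 →ₗ[ℂ] S.J 0 := S.wt0.tau (S.anti 0) (S.top 0)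

@[simp] theorem ev_tau (m : S.X 0 ⧸ S.F 0 1) : S.ev (S.tau m) = m := Wt.ev_tau _ _ _ _

@[simp] theorem D_tau (m : S.X 0 ⧸ S.F 0 1) : S.D 0 (S.tau m) = 0 := by
  apply (S.E 0).injective
  rw [E_apply, ← D_L0, map_zero, tau, L0, Wt.op_tau, map_zero]

/-- A closed element is determined by its value. -/
theorem eq_tau {s : S.J 0} (hs : S.D 0 s = 0) : s = S.tau (S.ev s) :=
  Wt.eq_tau _ _ _ (by
    change S.L0 s = 0
    rw [L0_eq, hs, map_zero])

theorem eq_of_ev {s t : S.J 0} (hs : S.D 0 s = 0) (ht : S.D 0 t = 0) (h : S.ev s = S.ev t) :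
    s = t := by
  rw [S.eq_tau hs, S.eq_tau ht, h]

theorem ev_I (s : S.J 1) : S.ev (S.I 0 s) = 0 := by
  obtain ⟨x, hx⟩ := Cpl.rep (S.anti 1) s 0
  have h1 : (S.I 0 s).1 1 = (S.F 0 1).mkQ (S.io 0 x) := cmap_spec s (S.ic 0 0) hx
  have h2 : S.io 0 x ∈ S.F 0 1 := S.ic 0 0 (by rw [S.top]; exact Submodule.mem_top)
  change (S.I 0 s).1 1 = 0
  rw [h1]
  exact (Submodule.Quotient.mk_eq_zero _).2 h2

/-- `h d = 1 - tau ev` in degree zero. -/
theorem htpy_zero (s : S.J 0) : S.h 0 (S.D 0 s) = s - S.tau (S.ev s) := by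
  have h1 : S.h 0 (S.D 0 s) - s + S.tau (S.ev s) = 0 := by
    refine S.eq_of_ev ?_ (map_zero _) ?_
    · rw [map_add, map_sub, D_tau, add_zero, S.exact 0 (S.DD 0 s), sub_self]
    · rw [map_add, map_sub, ev_tau, h_apply, ev_I, map_zero]
      abel
  rw [← sub_eq_zero, ← h1]
  abel

/-- A morphism of complexes of filtered spaces (not necessarily compatible with the
contractions). -/
structure Mor (S T : PS) where
  g : ∀ p, S.X p →ₗ[ℂ] T.X p
  cnt : ∀ p, Cnt (S.F p) (T.F p) (g p)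
  comm : ∀ p x, g (p + 1) (S.d p x) = T.d p (g p x)

variable {S} {T : PS} (u : Mor S T)

/-- The map of completions. -/
def Mor.m (p : ℕ) : S.J p →ₗ[ℂ] T.J p := cmap (S.anti p) (T.anti p) (u.cnt p)

theorem Mor.m_D (p : ℕ) (s : S.J p) : u.m (p + 1) (S.D p s) = T.D p (u.m p s) := by
  rw [m, m, D, D, ← cmap_comp (hvu := (u.cnt (p + 1)).comp (S.dc p)),
    ← cmap_comp (hvu := (T.dc p).comp (u.cnt p))]
  exact cmap_congr (LinearMap.ext fun x => u.comm p x) s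

/-- Naturality of `tau`. -/
theorem Mor.m_tau (m : S.X 0 ⧸ S.F 0 1) : u.m 0 (S.tau m) = T.tau (T.ev (u.m 0 (S.tau m))) :=
  T.eq_tau (by rw [← u.m_D, D_tau, map_zero])

theorem Mor.m_I (hi : ∀ p x, u.g p (S.io p x) = T.io p (u.g (p + 1) x)) (p : ℕ)
    (s : S.J (p + 1)) : u.m p (S.I p s) = T.I p (u.m (p + 1) s) := by
  rw [m, m, I, I, ← cmap_comp (hvu := (u.cnt p).comp (S.icnt p)),
    ← cmap_comp (hvu := (T.icnt p).comp (u.cnt (p + 1)))]
  exact cmap_congr (LinearMap.ext fun x => hi p x) s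

/-- Naturality of the homotopy, for the morphisms compatible with the contractions. -/
theorem Mor.m_h (hi : ∀ p x, u.g p (S.io p x) = T.io p (u.g (p + 1) x)) (p : ℕ)
    (s : S.J (p + 1)) : u.m p (S.h p s) = T.h p (u.m (p + 1) s) := by
  have h1 : ∀ s, u.m (p + 1) (S.L p s) = T.L p (u.m (p + 1) s) := by
    intro s
    rw [L_eq, L_eq, map_add, u.m_D, u.m_I hi, u.m_I hi, u.m_D]
  rw [h_apply, h_apply, u.m_I hi]
  congr 1
  apply (T.E p).injective
  rw [LinearEquiv.apply_symm_apply, E_apply, ← h1, ← E_apply, LinearEquiv.apply_symm_apply]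

end PS

end

end Vale.Agent.P286.H697
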