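import Vale.Agent.P286.H697.J.Cpl

/-!
# Operators with weights on a filtered space

`Wt F L p`: the operator `L` acts on `F n / F (n + 1)` by `-(n + p)`.  Then `L` is bijective on
the completion if `p ≥ 1`, and for `p = 0` the kernel of `L` on the completion is `X ⧸ F 1`.
-/

namespace Vale.Agent.P286.H697

noncomputable section

variable {X Y Z : Type*} [AddCommGroup X] [Module ℂ X] [AddCommGroup Y] [Module ℂ Y]
  [AddCommGroup Z] [Module ℂ Z]
variable {F : ℕ → Submodule ℂ X} {G : ℕ → Submodule ℂ Y} {H : ℕ → Submodule ℂ Z}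

/-- The operator `L` acts on `F n / F (n + 1)` by `-(n + p)`. -/
def Wt (F : ℕ → Submodule ℂ X) (L : X →ₗ[ℂ] X) (p : ℕ) : Prop :=
  ∀ n, ∀ x ∈ F n, L x + ((n + p : ℕ) : ℂ) • x ∈ F (n + 1)

variable {L : X →ₗ[ℂ] X} {p : ℕ}

theorem Wt.mem (h : Wt F L p) (hF : Antitone F) {n : ℕ} {x : X} (hx : x ∈ F n) : L x ∈ F n := by
  have h1 := hF (Nat.le_succ n) (h n x hx)
  have h2 : L x = (L x + ((n + p : ℕ) : ℂ) • x) - ((n + p : ℕ) : ℂ) • x := by abel
  rw [h2]
  exact sub_mem h1 (Submodule.smul_mem _ _ hx)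

theorem Wt.cnt (h : Wt F L p) (hF : Antitone F) : Cnt F F L :=
  Cnt.of_le fun _ _ hx => h.mem hF hx

/-- Solve `L y = x` modulo `F N`. -/
theorem Wt.solve (h : Wt F L p) (hF : Antitone F) (N : ℕ) :
    ∀ (j k : ℕ), 0 < k + p → N ≤ k + j → ∀ x ∈ F k, ∃ y ∈ F k, L y - x ∈ F N := by
  intro j
  induction j with
  | zero =>
    intro k _ hN x hx
    exact ⟨0, zero_mem _, by
      rw [map_zero, zero_sub]
      exact neg_mem (hF hN hx)⟩
  | succ j ih =>
    intro k hk hN x hx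
    have hc : ((k + p : ℕ) : ℂ) ≠ 0 := by exact_mod_cast hk.ne'
    have h0 : -(((k + p : ℕ) : ℂ)⁻¹ • x) ∈ F k := neg_mem (Submodule.smul_mem _ _ hx)
    have h1 : x - L (-(((k + p : ℕ) : ℂ)⁻¹ • x)) ∈ F (k + 1) := by
      have h2 := h k _ h0
      have h3 : x - L (-(((k + p : ℕ) : ℂ)⁻¹ • x)) = -(L (-(((k + p : ℕ) : ℂ)⁻¹ • x)) +
          ((k + p : ℕ) : ℂ) • -(((k + p : ℕ) : ℂ)⁻¹ • x)) := by
        rw [smul_neg, smul_smul, mul_inv_cancel₀ hc, one_smul]
        abel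
      rw [h3]
      exact neg_mem h2
    obtain ⟨y, hy, hy'⟩ := ih (k + 1) (by omega) (by omega) _ h1
    refine ⟨-(((k + p : ℕ) : ℂ)⁻¹ • x) + y, add_mem h0 (hF (Nat.le_succ k) hy), ?_⟩
    have h4 : L (-(((k + p : ℕ) : ℂ)⁻¹ • x) + y) - x =
        L y - (x - L (-(((k + p : ℕ) : ℂ)⁻¹ • x))) := by
      rw [map_add]; abel
    rw [h4]
    exact hy'

/-- `L x = 0` modulo `F N` implies `x = 0` modulo `F N`. -/
theorem Wt.inj (h : Wt F L p) (hF : Antitone F) {N k : ℕ} (hk : 0 < k + p) {x : X}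
    (hx : x ∈ F k) (hL : L x ∈ F N) : x ∈ F N := by
  rcases Nat.lt_or_ge N k with h1 | h1
  · exact hF h1.le hx
  obtain ⟨j, rfl⟩ := Nat.exists_eq_add_of_le h1
  clear h1
  induction j generalizing k with
  | zero => exact hx
  | succ j ih =>
    have hc : ((k + p : ℕ) : ℂ) ≠ 0 := by exact_mod_cast hk.ne'
    have h2 : L x ∈ F (k + 1) := hF (by omega) hL
    have h3 : ((k + p : ℕ) : ℂ) • x ∈ F (k + 1) := by
      have h4 := sub_mem (h k x hx) h2
      rwa [add_sub_cancel_left] at h4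
    have h5 : x ∈ F (k + 1) := by
      have h6 := Submodule.smul_mem (F (k + 1)) (((k + p : ℕ) : ℂ)⁻¹) h3
      rwa [smul_smul, inv_mul_cancel₀ hc, one_smul] at h6
    have h7 := ih (k := k + 1) (by omega) h5 (by rwa [show k + 1 + j = k + (j + 1) by omega])
    rwa [show k + (j + 1) = k + 1 + j by omega]

theorem Wt.exists_solve (h : Wt F L p) (hF : Antitone F) {k : ℕ} (hk : 0 < k + p) (N : ℕ) {x : X}
    (hx : x ∈ F k) : ∃ y ∈ F k, L y - x ∈ F N :=
  h.solve hF N N k hk (Nat.le_add_left _ _) x hx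

theorem mkQ_eq_iff {n : ℕ} {x y : X} : (F n).mkQ x = (F n).mkQ y ↔ x - y ∈ F n := by
  rw [← sub_eq_zero, ← map_sub]
  exact Submodule.Quotient.mk_eq_zero _

/-- Build an element of the completion from a property which determines the classes. -/
theorem Cpl.exists_of (F : ℕ → Submodule ℂ X) (P : ℕ → X → Prop)
    (hP : ∀ n, ∃ x, P n x) (hle : ∀ n x, P (n + 1) x → P n x)
    (hu : ∀ n x y, P n x → P n y → x - y ∈ F n) :
    ∃ s : Cpl F, ∀ n, ∀ x, P n x → s.1 n = (F n).mkQ x := by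
  choose x hx using hP
  refine ⟨⟨fun n => (F n).mkQ (x n), fun n => ⟨x (n + 1), ?_, rfl⟩⟩, fun n y hy => ?_⟩
  · exact mkQ_eq_iff.2 (hu n _ _ (hle n _ (hx (n + 1))) (hx n))
  · exact mkQ_eq_iff.2 (hu n _ _ (hx n) hy)

/-- The operator `L` on the completion. -/
def Wt.op (h : Wt F L p) (hF : Antitone F) : Cpl F →ₗ[ℂ] Cpl F := cmap hF hF (h.cnt hF)

theorem Wt.op_spec (h : Wt F L p) (hF : Antitone F) (s : Cpl F) {n : ℕ} {x : X}
    (hx : s.1 n = (F n).mkQ x) : (h.op hF s).1 n = (F n).mkQ (L x) :=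
  cmap_spec s (fun _ hy => h.mem hF hy) hx

theorem Cpl.rep (hF : Antitone F) (s : Cpl F) (n : ℕ) : ∃ x, s.1 n = (F n).mkQ x := by
  obtain ⟨x, hx⟩ := Cpl.exists_rep hF s n
  exact ⟨x, hx n le_rfl⟩

theorem Wt.op_injective (h : Wt F L p) (hF : Antitone F) (h0 : F 0 = ⊤) (hp : 0 < p) :
    Function.Injective (h.op hF) := by
  rw [injective_iff_map_eq_zero]
  intro s hs
  refine Cpl.ext' fun n => ?_
  obtain ⟨x, hx⟩ := Cpl.rep hF s n
  have h1 := h.op_spec hF s hx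
  rw [hs] at h1
  have h2 : L x ∈ F n := by
    have h3 : (F n).mkQ (L x) = (F n).mkQ 0 := by rw [← h1, map_zero]; rfl
    have h4 := mkQ_eq_iff.1 h3
    rwa [sub_zero] at h4
  have h5 : x ∈ F n := h.inj hF (k := 0) (by omega) (by rw [h0]; exact Submodule.mem_top) h2
  rw [hx]
  exact (Submodule.Quotient.mk_eq_zero _).2 h5

theorem Wt.op_surjective (h : Wt F L p) (hF : Antitone F) (h0 : F 0 = ⊤) (hp : 0 < p) :
    Function.Surjective (h.op hF) := by
  intro s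
  have ht : ∀ x : X, x ∈ F 0 := fun x => by rw [h0]; exact Submodule.mem_top
  obtain ⟨t, ht'⟩ := Cpl.exists_of F (fun n y => s.1 n = (F n).mkQ (L y))
    (fun n => by
      obtain ⟨x, hx⟩ := Cpl.rep hF s n
      obtain ⟨y, -, hy⟩ := h.exists_solve hF (k := 0) (by omega) n (ht x)
      exact ⟨y, by rw [hx]; exact (mkQ_eq_iff.2 hy).symm⟩)
    (fun n y hy => by
      obtain ⟨x, hx⟩ := Cpl.exists_rep hF s (n + 1)
      rw [hx (n + 1) le_rfl] at hy
      rw [hx n (Nat.le_succ n)]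
      exact mkQ_eq_iff.2 (hF (Nat.le_succ n) (mkQ_eq_iff.1 hy)))
    (fun n x y hx hy => by
      refine h.inj hF (k := 0) (by omega) (ht _) ?_
      rw [map_sub]
      rw [hx] at hy
      exact mkQ_eq_iff.1 hy)
  refine ⟨t, Cpl.ext' fun n => ?_⟩
  obtain ⟨x, hx⟩ := Cpl.rep hF s n
  obtain ⟨y, -, hy⟩ := h.exists_solve hF (k := 0) (by omega) n (ht x)
  have h1 : s.1 n = (F n).mkQ (L y) := by rw [hx]; exact (mkQ_eq_iff.2 hy).symm
  rw [h1]
  exact h.op_spec hF t (ht' n y h1)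

/-- The inverse of `L` on the completion, in positive weight. -/
def Wt.equiv (h : Wt F L p) (hF : Antitone F) (h0 : F 0 = ⊤) (hp : 0 < p) :
    Cpl F ≃ₗ[ℂ] Cpl F :=
  LinearEquiv.ofBijective (h.op hF) ⟨h.op_injective hF h0 hp, h.op_surjective hF h0 hp⟩

/-- The value modulo `F 1`. -/
def Cpl.ev (F : ℕ → Submodule ℂ X) : Cpl F →ₗ[ℂ] X ⧸ F 1 where
  toFun s := s.1 1
  map_add' _ _ := rfl
  map_smul' _ _ := rfl

/-- In weight zero an element of the kernel of `L` is determined by its value modulo `F 1`. -/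
theorem Wt.eq_zero_of_ev (h : Wt F L p) (hF : Antitone F) {s : Cpl F}
    (hs : h.op hF s = 0) (h1 : Cpl.ev F s = 0) : s = 0 := by
  refine Cpl.ext' fun n => ?_
  obtain ⟨x, hx⟩ := Cpl.exists_rep hF s (n + 1)
  have h2 : x ∈ F 1 := by
    have h3 : (F 1).mkQ x = 0 := by rw [← hx 1 (by omega)]; exact h1
    exact (Submodule.Quotient.mk_eq_zero _).1 h3
  have h4 := h.op_spec hF s (hx n (Nat.le_succ n))
  rw [hs] at h4
  have h5 : L x ∈ F n := by
    have h3 : (F n).mkQ (L x) = (F n).mkQ 0 := by rw [← h4, map_zero]; rfl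
    have h4 := mkQ_eq_iff.1 h3
    rwa [sub_zero] at h4
  rw [hx n (Nat.le_succ n)]
  exact (Submodule.Quotient.mk_eq_zero _).2 (h.inj hF (k := 1) (by omega) h2 h5)

/-- In weight zero every class modulo `F 1` lifts to the kernel of `L`. -/
theorem Wt.exists_ev (h : Wt F L 0) (hF : Antitone F) (h0 : F 0 = ⊤) (m : X ⧸ F 1) :
    ∃ s : Cpl F, h.op hF s = 0 ∧ Cpl.ev F s = m := by
  obtain ⟨x₀, rfl⟩ := (F 1).mkQ_surjective m
  have hx₀ : L x₀ ∈ F 1 := by
    have h1 := h 0 x₀ (by rw [h0]; exact Submodule.mem_top)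
    simpa using h1
  have hex : ∀ n, ∃ x, x - x₀ ∈ F 1 ∧ L x ∈ F n := by
    intro n
    obtain ⟨y, hy, hy'⟩ := h.exists_solve hF (k := 1) (by omega) n hx₀
    refine ⟨x₀ - y, by simpa using hy, ?_⟩
    have h2 : L (x₀ - y) = -(L y - L x₀) := by rw [map_sub]; abel
    rw [h2]
    exact neg_mem hy'
  have huniq : ∀ n x y, (x - x₀ ∈ F 1 ∧ L x ∈ F n) → (y - x₀ ∈ F 1 ∧ L y ∈ F n) →
      x - y ∈ F n := by
    intro n x y hx hy
    refine h.inj hF (k := 1) (by omega) ?_ ?_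
    · have := sub_mem hx.1 hy.1
      simpa using this
    · rw [map_sub]
      exact sub_mem hx.2 hy.2
  obtain ⟨s, hs⟩ := Cpl.exists_of F (fun n x => x - x₀ ∈ F 1 ∧ L x ∈ F n) hex
    (fun n x hx => ⟨hx.1, hF (Nat.le_succ n) hx.2⟩) huniq
  refine ⟨s, Cpl.ext' fun n => ?_, ?_⟩
  · obtain ⟨x, hx⟩ := hex n
    rw [h.op_spec hF s (hs n x hx)]
    exact (Submodule.Quotient.mk_eq_zero _).2 hx.2
  · obtain ⟨x, hx⟩ := hex 1
    exact (hs 1 x hx).trans (mkQ_eq_iff.2 hx.1)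

/-- The section `tau : X ⧸ F 1 → ker L` in weight zero. -/
def Wt.tau (h : Wt F L 0) (hF : Antitone F) (h0 : F 0 = ⊤) : X ⧸ F 1 →ₗ[ℂ] Cpl F where
  toFun m := (h.exists_ev hF h0 m).choose
  map_add' m m' := by
    have h1 := (h.exists_ev hF h0 m).choose_spec
    have h2 := (h.exists_ev hF h0 m').choose_spec
    have h3 := (h.exists_ev hF h0 (m + m')).choose_spec
    rw [← sub_eq_zero]
    refine h.eq_zero_of_ev hF ?_ ?_
    · rw [map_sub, map_add, h1.1, h2.1, h3.1]; simp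
    · rw [map_sub, map_add, h1.2, h2.2, h3.2]; simp
  map_smul' c m := by
    have h1 := (h.exists_ev hF h0 m).choose_spec
    have h3 := (h.exists_ev hF h0 (c • m)).choose_spec
    rw [← sub_eq_zero]
    refine h.eq_zero_of_ev hF ?_ ?_
    · rw [map_sub, RingHom.id_apply, map_smul, h1.1, h3.1]; simp
    · rw [map_sub, RingHom.id_apply, map_smul, h1.2, h3.2]; simp

theorem Wt.op_tau (h : Wt F L 0) (hF : Antitone F) (h0 : F 0 = ⊤) (m : X ⧸ F 1) :
    h.op hF (h.tau hF h0 m) = 0 := (h.exists_ev hF h0 m).choose_spec.1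

theorem Wt.ev_tau (h : Wt F L 0) (hF : Antitone F) (h0 : F 0 = ⊤) (m : X ⧸ F 1) :
    Cpl.ev F (h.tau hF h0 m) = m := (h.exists_ev hF h0 m).choose_spec.2

theorem Wt.eq_tau (h : Wt F L 0) (hF : Antitone F) (h0 : F 0 = ⊤) {s : Cpl F}
    (hs : h.op hF s = 0) : s = h.tau hF h0 (Cpl.ev F s) := by
  rw [← sub_eq_zero]
  refine h.eq_zero_of_ev hF ?_ ?_
  · rw [map_sub, hs, h.op_tau, sub_zero]
  · rw [map_sub, h.ev_tau, sub_self]

end

end Vale.Agent.P286.H697
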